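import Vale.Agent.P365.Inf.Box
import Vale.Agent.P365.Comp.Out
import Vale.Agent.P365.L5.Trunc
import Vale.Agent.P365.Stat.Final

namespace Vale.Agent.Results.P365.PurePoint2D

open MeasureTheory ProbabilityTheory P365L

/-- the finite volume input: exponential decay of the fractional moments of the Green function at
every energy -/
theorem fmbox {γ : ℝ} (hγ : 0 < γ) (ρ : Measure ℝ) [IsProbabilityMeasure ρ] (B : ℝ)
    (hρ : ρ (Set.Icc (-B) B)ᶜ = 0) (E : ℝ) : Inf.FMbox γ ρ E := by
  have hm : Measurable fun t : ℝ => t - E := by fun_prop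
  have : IsProbabilityMeasure (ρ.map fun t => t - E) :=
    Measure.isProbabilityMeasure_map hm.aemeasurable
  exact Comp.FMbox_of_LOC5 hγ ρ hρ E
    (P365L5.LOC5w_of_static static hγ (ρ.map fun t => t - E) (Op.map_sub_bounded hρ E))

/-- `H = hop + V` has pure point spectrum: its eigenvectors span a dense subspace of `ℓ²(ℤ²)` -/
def PurePoint (V : Site → ℝ) : Prop :=
  (Submodule.span ℂ {u : L2 | ∃ E : ℝ, ∀ x : Site,
    hop (fun y => u y) x + ((V x : ℝ) : ℂ) * u x = (E : ℂ) * u x}).topologicalClosure = ⊤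

/-- every spectral measure of `H = hop + V` is carried by a countable set -/
def AtomicSpectrum (V : Site → ℝ) : Prop :=
  ∀ (ψ : L2) (μ : Measure ℝ), IsSpectralMeasure V ψ μ → ∃ S : Set ℝ, S.Countable ∧ μ Sᶜ = 0

/-- for `w` iid of law `ρ`, `c` iid standard Cauchy, independent of `w`, every `lam, kap > 0`:
almost surely `hop + lam (w + kap c)` has pure point spectrum -/
def Localized (ρ : Measure ℝ) : Prop :=
  ∀ (Ω : Type) [MeasurableSpace Ω] (P : Measure Ω) [IsProbabilityMeasure P]
    (w c : Site → Ω → ℝ), (∀ x, Measurable (w x)) → (∀ x, Measurable (c x)) →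
    iIndepFun w P → (∀ x, P.map (w x) = ρ) →
    iIndepFun c P → (∀ x, P.map (c x) = cauchyMeasure 0 1) →
    IndepFun (fun o x => w x o) (fun o x => c x o) P →
    ∀ lam : ℝ, 0 < lam → ∀ kap : ℝ, 0 < kap →
    ∀ᵐ o ∂P, PurePoint (fun x => lam * (w x o + kap * c x o)) ∧
      AtomicSpectrum (fun x => lam * (w x o + kap * c x o))

/-- the core: compactly supported iid background plus an independent iid Cauchy field -/
theorem core (ρ : Measure ℝ) [IsProbabilityMeasure ρ] (B : ℝ) (hρ : ρ (Set.Icc (-B) B)ᶜ = 0) :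
    Localized ρ := by
  intro Ω _ P _ w c hw hc hwi hwl hci hcl hwc lam hlam kap hkap
  have hm : Measurable fun t : ℝ => lam * t := measurable_id.const_mul lam
  set ρ' : Measure ℝ := ρ.map fun t => lam * t with hρ'
  have : IsProbabilityMeasure ρ' := Measure.isProbabilityMeasure_map hm.aemeasurable
  have hset : ρ' (Set.Icc (-(lam * B)) (lam * B))ᶜ = 0 := by
    rw [hρ', Measure.map_apply hm measurableSet_Icc.compl]
    refine measure_mono_null ?_ hρ
    intro t ht
    simp only [Set.mem_preimage, Set.mem_compl_iff, Set.mem_Icc, not_and_or, not_le] at ht ⊢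
    rcases ht with h | h
    · left
      by_contra hcon
      push Not at hcon
      nlinarith
    · right
      by_contra hcon
      push Not at hcon
      nlinarith
  have hUm : ∀ x, Measurable fun o => lam * w x o := fun x => (hw x).const_mul lam
  have hUc : IndepFun (fun o x => lam * w x o) (fun o x => c x o) P := by
    have h2 : Measurable fun (v : Site → ℝ) (x : Site) => lam * v x :=
      measurable_pi_lambda _ fun x =>
        (show Measurable fun v : Site → ℝ => v x from measurable_pi_apply x).const_mul lam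
    exact hwc.comp h2 measurable_id
  have hs : Inf.Setup P (fun x o => lam * w x o) c := ⟨hUm, hc, hci, hcl, hUc⟩
  have hUi : iIndepFun (fun x o => lam * w x o) P := hwi.comp (fun _ t => lam * t) fun _ => hm
  have hUl : ∀ x, P.map (fun o => lam * w x o) = ρ' := by
    intro x
    rw [hρ', ← hwl x, Measure.map_map hm (hw x)]
    rfl
  have h := Inf.pure_point_iid (γ := lam * kap) (mul_pos hlam hkap) hs hUi (ρ := ρ') hUl
    fun E => fmbox (mul_pos hlam hkap) ρ' (lam * B) hset E
  filter_upwards [h] with o ho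
  have hV : Inf.pot (lam * kap) (fun x o => lam * w x o) c o =
      fun x => lam * (w x o + kap * c x o) := by
    funext x
    simp only [Inf.pot]
    ring
  rw [hV] at ho
  exact ⟨ho, fun ψ μ hμ => Inf.spectral_atomic ho hμ⟩

/-- **Two-dimensional localization at every disorder and every energy** for the Anderson operator
`H = hop + lam (w + kap c)` on `ℓ²(ℤ²)`: `w` iid of any compactly supported law (in particular
uniform on `[-1,1]`), `c` iid standard Cauchy, independent, every `lam > 0` and `kap > 0`. -/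
theorem result :
    (∀ (ρ : Measure ℝ) [IsProbabilityMeasure ρ] (B : ℝ), ρ (Set.Icc (-B) B)ᶜ = 0 →
      Localized ρ) ∧
    Localized (cond volume (Set.Icc (-1) 1)) ∧
    (∀ (V : Site → ℝ) (ψ : L2), ∃ μ : Measure ℝ, IsSpectralMeasure V ψ μ ∧
      μ.real Set.univ = ‖ψ‖ ^ 2) ∧
    (∀ eps : ℝ, 0 < eps → ∃ kap₀ : ℝ, 0 < kap₀ ∧
      ∀ (Ω : Type) [MeasurableSpace Ω] (P : Measure Ω) [IsProbabilityMeasure P] (w c : Ω → ℝ),
      Measurable w → Measurable c → IndepFun w c P → P.map w = cond volume (Set.Icc (-1) 1) →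
      P.map c = cauchyMeasure 0 1 → ∀ kap : ℝ, 0 < kap → kap ≤ kap₀ →
      ∀ B : Set ℝ, MeasurableSet B →
        |P.real {o | w o + kap * c o ∈ B} - (cond volume (Set.Icc (-1 : ℝ) 1)).real B| ≤ eps) := by
  refine ⟨fun ρ _ B hρ => core ρ B hρ, ?_, exists_spectralMeasure, ?_⟩
  · have : IsProbabilityMeasure (cond volume (Set.Icc (-1 : ℝ) 1)) := isProbabilityMeasure_unif
    have hρ : (cond volume (Set.Icc (-1 : ℝ) 1)) (Set.Icc (-1 : ℝ) 1)ᶜ = 0 := by
      rw [ProbabilityTheory.cond_apply measurableSet_Icc]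
      simp
    exact core _ 1 hρ
  · intro eps heps
    obtain ⟨k, hk, H⟩ := tv_close heps
    refine ⟨k, hk, ?_⟩
    intro Ω _ P _ w c hw hc hi hwl hcl kap h1 h2 B hB
    exact H P w c hw hc hi hwl hcl kap h1 h2 B hB

end Vale.Agent.Results.P365.PurePoint2D
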