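import Vale.Agent.P365.H951.Defs
import Vale.Agent.Results.P365.PurePoint2D
import Vale.Agent.P365.SparseRes
import Vale.Agent.Results.P365.LloydNoAC

namespace Vale.Agent.Results.P365.AllModels2D

open MeasureTheory ProbabilityTheory P365L Vale.Agent.P365.H951

/-- **Two-dimensional localization at every energy.**
(1) For the potential `lam (w + kap c)`, `w` iid of any compactly supported law (in particular
uniform on `[-1,1]`), `c` iid standard Cauchy, every `lam, kap > 0`: pure point spectrum.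
(2) The uniform law modified on a sparse random set of sites, every `lam > 0`.
(3) The same with bounded potentials, one law for all `lam ≥ lam₁`.
(4) Arbitrary random backgrounds plus `gam c`: no absolutely continuous spectrum.
(5) Spectral measures exist for every potential.
(6) The law of `w + kap c` is close to the uniform law in total variation. -/
theorem result :
    (∀ (ρ : Measure ℝ) [IsProbabilityMeasure ρ] (B : ℝ), ρ (Set.Icc (-B) B)ᶜ = 0 →
      LocalizedCauchy ρ) ∧
    LocalizedCauchy U ∧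
    (∀ p : ℝ, 0 < p → p < 1 → ∃ τ : Measure ℝ, Regular τ ∧ ∀ lam : ℝ, 0 < lam →
      Resampled p τ lam ∧ LocalizedIid (ENNReal.ofReal (1 - p) • U + ENNReal.ofReal p • τ) lam) ∧
    (∀ p : ℝ, 0 < p → p < 1 → ∀ lam₁ : ℝ, 0 < lam₁ → ∃ τ : Measure ℝ, Regular τ ∧
      (∃ X : ℝ, τ (Set.Icc (-X) X)ᶜ = 0) ∧ ∀ lam : ℝ, lam₁ ≤ lam →
      Resampled p τ lam ∧ LocalizedIid (ENNReal.ofReal (1 - p) • U + ENNReal.ofReal p • τ) lam) ∧
    SingularForAllBackgrounds ∧
    (∀ (V : Site → ℝ) (ψ : L2), ∃ μ : Measure ℝ, IsSpectralMeasure V ψ μ ∧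
      μ.real Set.univ = ‖ψ‖ ^ 2) ∧
    (∀ eps : ℝ, 0 < eps → ∃ kap₀ : ℝ, 0 < kap₀ ∧
      ∀ (Ω : Type) [MeasurableSpace Ω] (P : Measure Ω) [IsProbabilityMeasure P] (w c : Ω → ℝ),
      Measurable w → Measurable c → IndepFun w c P → P.map w = U →
      P.map c = cauchyMeasure 0 1 → ∀ kap : ℝ, 0 < kap → kap ≤ kap₀ →
      ∀ B : Set ℝ, MeasurableSet B →
        |P.real {o | w o + kap * c o ∈ B} - U.real B| ≤ eps) :=
  ⟨PurePoint2D.result.1, PurePoint2D.result.2.1, Vale.Agent.P365.SparseRes.result.1,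
    Vale.Agent.P365.SparseRes.result.2.1,
    fun _ _ P _ w c hw hc hci hcl hwc gam hgam =>
      LloydNoAC.result.2.1 P w c hw hc hci hcl hwc gam hgam,
    PurePoint2D.result.2.2.1, PurePoint2D.result.2.2.2⟩

end Vale.Agent.Results.P365.AllModels2D
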