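import Vale.Agent.P365.T2.H439.ExpGoal

/-!
# P365, Q2: exponential localization in two dimensions at every disorder, exact uniform law
-/

namespace Vale.Agent.Results.P365.ExpLocalization2D

open MeasureTheory ProbabilityTheory P365L

/-- `u` in `ℓ²(ℤ²)` is an eigenvector (or zero) of `H = hop + V` with the eigenvalue `E` -/
def IsEigen (V : Site → ℝ) (E : ℝ) (u : L2) : Prop :=
  ∀ x : Site, hop (fun y => u y) x + ((V x : ℝ) : ℂ) * u x = (E : ℂ) * u x

/-- `H = hop + V` has pure point spectrum: its eigenvectors span a dense subspace of `ℓ²(ℤ²)` -/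
def PurePoint (V : Site → ℝ) : Prop :=
  (Submodule.span ℂ {u : L2 | ∃ E : ℝ, IsEigen V E u}).topologicalClosure = ⊤

/-- all eigenvalues of `H = hop + V` are simple -/
def Simple (V : Site → ℝ) : Prop :=
  ∀ (E : ℝ) (u v : L2), IsEigen V E u → IsEigen V E v → u ≠ 0 → ∃ c : ℂ, v = c • u

/-- all eigenvectors of `H = hop + V` decay exponentially -/
def ExpDecay (V : Site → ℝ) : Prop :=
  ∀ (E : ℝ) (u : L2), IsEigen V E u → ∃ C c : ℝ, 0 < c ∧
    ∀ y : Site, ‖u y‖ ≤ C * Real.exp (-c * (y.1.natAbs + y.2.natAbs : ℕ))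

/-- **Two-dimensional exponential localization** (Q2): for every `lam > 0`, for independent `w x`,
each uniform on `[-1, 1]`, almost surely `H = hop + lam w` on `ℓ²(ℤ²)` has pure point spectrum, its
eigenvalues are simple and all its eigenvectors decay exponentially. -/
theorem result : ∀ lam : ℝ, 0 < lam → ∀ {Ω : Type*} [MeasurableSpace Ω] (P : Measure Ω)
    [IsProbabilityMeasure P] (w : Site → Ω → ℝ), (∀ x, Measurable (w x)) → iIndepFun w P →
    (∀ x, P.map (w x) = cond volume (Set.Icc (-1) 1)) →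
    ∀ᵐ o ∂P, PurePoint (fun x => lam * w x o) ∧ Simple (fun x => lam * w x o) ∧
      ExpDecay (fun x => lam * w x o) :=
  P365T2.H439.goalExp

end Vale.Agent.Results.P365.ExpLocalization2D
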