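import Vale.Agent.P365.T2.H213.TopOm

/-!
# P365, Q2: two-dimensional localization at every disorder, exact uniform law
-/

namespace Vale.Agent.Results.P365.FullLocalization2D

open MeasureTheory ProbabilityTheory P365L

/-- `H = hop + V` has pure point spectrum: its eigenvectors span a dense subspace of `ℓ²(ℤ²)` -/
def PurePoint (V : Site → ℝ) : Prop :=
  (Submodule.span ℂ {u : L2 | ∃ E : ℝ, ∀ x : Site,
    hop (fun y => u y) x + ((V x : ℝ) : ℂ) * u x = (E : ℂ) * u x}).topologicalClosure = ⊤

/-- **Two-dimensional localization** (Q2): for every `lam > 0`, for independent `w x`, each uniform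
on `[-1, 1]`, almost surely `H = hop + lam w` on `ℓ²(ℤ²)` has pure point spectrum. -/
theorem result : ∀ lam : ℝ, 0 < lam → ∀ {Ω : Type*} [MeasurableSpace Ω] (P : Measure Ω)
    [IsProbabilityMeasure P] (w : Site → Ω → ℝ), (∀ x, Measurable (w x)) → iIndepFun w P →
    (∀ x, P.map (w x) = cond volume (Set.Icc (-1) 1)) →
    ∀ᵐ o ∂P, PurePoint (fun x => lam * w x o) :=
  P365T2.H213.goal

end Vale.Agent.Results.P365.FullLocalization2D
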