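import Vale.Agent.P365.J376.Fin
import Vale.Agent.P365.T1c.NormAll376

namespace Vale.Agent.Results.P365.UniformNoAC2D

open MeasureTheory ProbabilityTheory P365L

/-- **No absolutely continuous spectrum in dimension two at any disorder, for the uniform law.**
For `w` iid uniform on `[-1, 1]` and every `lam > 0`, almost surely every spectral measure of
`H = hop + lam w` on `ℓ²(ℤ²)` is singular with respect to Lebesgue measure; in particular `H` has
purely absolutely continuous spectrum on no set. -/
theorem result :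
    (∀ {Ω : Type} [MeasurableSpace Ω] (P : Measure Ω) [IsProbabilityMeasure P]
      (w : Site → Ω → ℝ), (∀ x, Measurable (w x)) → iIndepFun w P →
      (∀ x, P.map (w x) = cond volume (Set.Icc (-1) 1)) → ∀ lam : ℝ, 0 < lam →
      ∀ᵐ o ∂P,
        (∀ (ψ : L2) (μ : Measure ℝ), IsSpectralMeasure (fun x => lam * w x o) ψ μ →
          μ ⟂ₘ volume) ∧
        ∀ I : Set ℝ, ¬ PurelyAC (fun x => lam * w x o) I) ∧
    (∀ (V : Site → ℝ) (ψ : L2), ∃ μ : Measure ℝ, IsSpectralMeasure V ψ μ ∧
      μ.real Set.univ = ‖ψ‖ ^ 2) :=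
  ⟨J376.final fun _ hlam => P365T1.HBasm.flow_in hlam, exists_spectralMeasure⟩

end Vale.Agent.Results.P365.UniformNoAC2D
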